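import Vale.Agent.P338.R2.H235.Ctl
import Vale.Agent.Lib.PolyTime.Unary
import Vale.Agent.Lib.PolyTime.NatArith2

/-!
P338-D, module SETUP: loops of the control value, and the parameters in unary.
-/

namespace Vale.Agent.P338.R3.H235

open Vale.Agent.P338.R2.H898 Function
open Vale.Agent.P338.R2.H235
open Vale.Agent.Lib.PolyTime (Enc enc esize pb pb_mono PT PB PBd Un)

/-- Repeat an update of the control value while a test is true. -/
noncomputable def iterProg {M F α : Type} (bit : Bool → α) [DecidableEq α] (pc pg : SProg)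
    (st tmp : F) (ι : ℕ → F) : Prog M F α :=
  whileProg bit pc st tmp ι (updProg bit pg st tmp ι)

theorem exists_iter {σ : Type*} [Enc σ] {c : σ → Bool} {g : σ → σ} (hc : PT ∅ c)
    (hg : PT ∅ g) :
    ∃ (pc pg : SProg) (W e : ℕ), 2 ≤ W ∧ ∀ {M F α : Type} [DecidableEq F] [DecidableEq α] {d : α}
      {bit : Bool → α} {ι : ℕ → F} {st tmp : F}, Lay ι W st tmp → bit true ≠ bit false →
      ∀ (m : M) (z : F → Zip α) (a : σ) (n B : ℕ), HoldsVal bit z st a → Free ι W tmp z →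
        (∀ i < n, c (g^[i] a) = true) → c (g^[n] a) = false →
        (∀ i ≤ n, esize (g^[i] a) ≤ B) →
        Prog.Run d (iterProg bit pc pg st tmp ι : Prog M F α) ⟨m, z⟩ ((n + 1) * pb e B)
          ⟨m, update z st ⟨[], (enc (g^[n] a)).map bit⟩⟩ := by
  obtain ⟨pc, W1, e1, hW1, h1⟩ := exists_while hc
  obtain ⟨pg, W2, e2, hW2, h2⟩ := exists_upd hg
  obtain ⟨e, he⟩ := (PB.pb e1).add (PB.pb e2)
  refine ⟨pc, pg, max W1 W2, e, hW1.trans (le_max_left _ _), ?_⟩
  intro M F α _ _ d bit ι st tmp hL hb m z a n B hst hfree hT hF hB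
  have hL1 := hL.mono (le_max_left W1 W2)
  have hL2 := hL.mono (le_max_right W1 W2)
  have hS : ∀ i, HoldsVal bit (update z st ⟨[], (enc (g^[i] a)).map bit⟩) st (g^[i] a) :=
    fun i => by simp [HoldsVal]
  have hFr : ∀ (i : ℕ) {V : ℕ}, V ≤ max W1 W2 →
      Free ι V tmp (update z st ⟨[], (enc (g^[i] a)).map bit⟩) := by
    intro i V hV
    refine ⟨by rw [update_of_ne hL.ne.symm]; exact hfree.1, fun j hj => ?_⟩
    rw [update_of_ne (hL.st j (lt_of_lt_of_le hj hV))]
    exact hfree.2 j (lt_of_lt_of_le hj hV)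
  have key := h1 (d := d) (M := M) hL1 hb (updProg bit pg st tmp ι) n (fun i => g^[i] a)
    (fun i => ⟨m, update z st ⟨[], (enc (g^[i] a)).map bit⟩⟩) (fun i => pb e2 (esize (g^[i] a)))
    (fun i _ => hS i) (fun i _ => hFr i (le_max_left _ _)) hT hF (by
      intro i hi
      have := h2 (d := d) (M := M) hL2 hb m (update z st ⟨[], (enc (g^[i] a)).map bit⟩)
        (g^[i] a) (hS i) (hFr i (le_max_right _ _))
      rw [update_idem, ← iterate_succ_apply' g i a] at this
      exact this)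
  have e0 : update z st ⟨[], (enc (g^[0] a)).map bit⟩ = z := by
    rw [show g^[0] a = a from rfl, ← hst, update_eq_self]
  rw [e0] at key
  refine key.mono ?_
  have b1 : ∑ i ∈ Finset.range n, pb e2 (esize (g^[i] a)) ≤ n * pb e2 B := by
    calc _ ≤ ∑ _i ∈ Finset.range n, pb e2 B :=
          Finset.sum_le_sum fun i hi => pb_mono _ (hB i (Finset.mem_range.mp hi).le)
      _ = _ := by simp
  have b2 : ∑ i ∈ Finset.range (n + 1), pb e1 (esize (g^[i] a)) ≤ (n + 1) * pb e1 B := by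
    calc _ ≤ ∑ _i ∈ Finset.range (n + 1), pb e1 B :=
          Finset.sum_le_sum fun i hi => pb_mono _
            (hB i (Nat.lt_succ_iff.mp (Finset.mem_range.mp hi)))
      _ = _ := by simp
  have b3 : pb e1 B + pb e2 B ≤ pb e B := he B
  have b4 := Nat.mul_le_mul_left (n + 1) b3
  have b5 : (n + 1) * (pb e1 B + pb e2 B) = (n + 1) * pb e1 B + (n * pb e2 B + pb e2 B) := by
    ring
  omega

/-! ### The parameters in unary -/

/-- The parameters: `d`, `s`, `y`. -/
abbrev P0 : Type := Un × Un × Un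

/-- The parameters of the control: `2 ^ (d ^ 2 + 3) + s + y` in unary, `d`, `s`, `y` in binary. -/
abbrev PU : Type := Un × ℕ × ℕ × ℕ

/-- The state of the loop. -/
abbrev GS : Type := Un × ℕ × P0

/-- One step. -/
def gStep (x : GS) : GS := (⟨2 * x.1.v⟩, x.2.1 + 1, x.2.2)

/-- The test. -/
def gTest (x : GS) : Bool := decide (x.2.1 < x.2.2.1.v * x.2.2.1.v + 3)

/-- The start. -/
def gInit (p : P0) : GS := (⟨1⟩, 0, p)

/-- The result. -/
def gOut (x : GS) : PU :=
  (⟨x.1.v + x.2.2.2.1.v + x.2.2.2.2.v⟩, x.2.2.1.v, x.2.2.2.1.v, x.2.2.2.2.v)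

/-- The end of the loop. -/
def gEnd (p : P0) : GS := (⟨2 ^ (p.1.v ^ 2 + 3)⟩, p.1.v ^ 2 + 3, p)

/-- The parameters of the control. -/
def pu (p : P0) : PU := (⟨2 ^ (p.1.v ^ 2 + 3) + p.2.1.v + p.2.2.v⟩, p.1.v, p.2.1.v, p.2.2.v)

theorem gOut_gEnd (p : P0) : gOut (gEnd p) = pu p := rfl

theorem pt_gTest : PT ∅ gTest :=
  PT.lt (PT.fst (PT.snd PT.id)) (PT.add (PT.mul (PT.unVal (PT.fst (PT.snd (PT.snd PT.id))))
    (PT.unVal (PT.fst (PT.snd (PT.snd PT.id))))) (PT.const 3))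

theorem pt_gStep : PT ∅ gStep :=
  (PT.mkUn (PT.mul (PT.const 2) (PT.unVal (PT.fst PT.id))) ((PBd.const 2).mul
    (PBd.unVal (A := ∅) (PT.fst PT.id)))).pair ((PT.add (PT.fst (PT.snd PT.id)) (PT.const 1)).pair
      (PT.snd (PT.snd PT.id)))

theorem pt_gInit : PT ∅ gInit := (PT.const _).pair ((PT.const 0).pair PT.id)

theorem pt_gOut : PT ∅ gOut := by
  have h1 : PT ∅ (fun x : GS => x.1) := PT.fst PT.id
  have h2 : PT ∅ (fun x : GS => x.2.2.1) := PT.fst (PT.snd (PT.snd PT.id))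
  have h3 : PT ∅ (fun x : GS => x.2.2.2.1) := PT.fst (PT.snd (PT.snd (PT.snd PT.id)))
  have h4 : PT ∅ (fun x : GS => x.2.2.2.2) := PT.snd (PT.snd (PT.snd (PT.snd PT.id)))
  exact (PT.mkUn ((h1.unVal.add h3.unVal).add h4.unVal)
    (((PBd.unVal h1).add (PBd.unVal h3)).add (PBd.unVal h4))).pair
    (h2.unVal.pair (h3.unVal.pair h4.unVal))

theorem gIter (p : P0) (i : ℕ) : gStep^[i] (gInit p) = (⟨2 ^ i⟩, i, p) := by
  induction i with
  | zero => rfl
  | succ i ih => rw [iterate_succ_apply', ih]; simp only [gStep, pow_succ']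

theorem esize_pair {β γ : Type*} [Enc β] [Enc γ] (b : β) (c : γ) :
    esize (b, c) = 2 * esize b + esize c + 1 := by
  simp [esize, Vale.Agent.Lib.PolyTime.enc_pair]

theorem esize_nat_le (n : ℕ) : esize n ≤ n := by
  simp only [esize, Vale.Agent.Lib.PolyTime.enc_nat]
  rw [Nat.size_eq_bits_len]
  exact Nat.size_le.mpr Nat.lt_two_pow_self

theorem esize_P0 (p : P0) : esize p = 2 * p.1.v + 2 * p.2.1.v + p.2.2.v + 2 := by
  obtain ⟨d, s, y⟩ := p
  simp only [esize_pair, Vale.Agent.Lib.PolyTime.esize_un]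
  omega

theorem esize_gs (u i : ℕ) (p : P0) :
    esize ((⟨u⟩, i, p) : GS) ≤ 2 * u + 2 * i + esize p + 2 := by
  have h1 := esize_nat_le i
  simp only [esize_pair, Vale.Agent.Lib.PolyTime.esize_un]
  omega

theorem le_two_pow' (d : ℕ) : d ^ 2 + 3 ≤ 2 ^ (d ^ 2 + 3) := Nat.lt_two_pow_self.le

theorem d_le (d : ℕ) : d ≤ 2 ^ (d ^ 2 + 3) := by
  have h1 : d ≤ d ^ 2 + 3 := by nlinarith [Nat.zero_le d]
  exact h1.trans (le_two_pow' d)

/-- The size of the parameters. -/
def pn (p : P0) : ℕ := 2 ^ (p.1.v ^ 2 + 3) + p.2.1.v + p.2.2.v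

theorem esize_P0_le (p : P0) : esize p ≤ 2 * pn p + 2 := by
  rw [esize_P0]
  have := d_le p.1.v
  unfold pn
  omega

/-- The program that writes the parameters in unary. -/
noncomputable def growProg {M F α : Type} (bit : Bool → α) [DecidableEq α]
    (pi pc pg po : SProg) (st tmp : F) (ι : ℕ → F) : Prog M F α :=
  .seq (updProg bit pi st tmp ι) (.seq (iterProg bit pc pg st tmp ι) (updProg bit po st tmp ι))

/-- **The parameters in unary**, for any function `g` of the end of the loop computable in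
polynomial time. -/
theorem exists_grow {S : Type*} [Enc S] {g : GS → S} (hg : PT ∅ g) :
    ∃ (pi pc pg po : SProg) (W e : ℕ), 2 ≤ W ∧ ∀ {M F α : Type} [DecidableEq F]
      [DecidableEq α] {d : α} {bit : Bool → α} {ι : ℕ → F} {st tmp : F}, Lay ι W st tmp →
      bit true ≠ bit false → ∀ (m : M) (z : F → Zip α) (p : P0), HoldsVal bit z st p →
        Free ι W tmp z →
        Prog.Run d (growProg bit pi pc pg po st tmp ι : Prog M F α) ⟨m, z⟩ (pb e (pn p))
          ⟨m, update z st ⟨[], (enc (g (gEnd p))).map bit⟩⟩ := by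
  obtain ⟨pi, W1, e1, hW1, h1⟩ := exists_upd pt_gInit
  obtain ⟨pc, pg, W2, e2, hW2, h2⟩ := exists_iter pt_gTest pt_gStep
  obtain ⟨po, W3, e3, hW3, h3⟩ := exists_upd hg
  obtain ⟨e, he⟩ : PB (fun n => pb e1 (2 * n + 2) + ((n + 1) * pb e2 (6 * n + 6) +
      pb e3 (6 * n + 6))) :=
    ((PB.pb e1).comp (((PB.const 2).mul PB.id).add (PB.const 2))).add
      (((PB.id.add (PB.const 1)).mul ((PB.pb e2).comp
        (((PB.const 6).mul PB.id).add (PB.const 6)))).add ((PB.pb e3).comp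
          (((PB.const 6).mul PB.id).add (PB.const 6))))
  refine ⟨pi, pc, pg, po, max (max W1 W2) W3, e,
    (hW1.trans (le_max_left _ _)).trans (le_max_left _ _), ?_⟩
  intro M F α _ _ d bit ι st tmp hL hb m z p hst hfree
  have w1 : W1 ≤ max (max W1 W2) W3 := (le_max_left _ _).trans (le_max_left _ _)
  have w2 : W2 ≤ max (max W1 W2) W3 := (le_max_right _ _).trans (le_max_left _ _)
  have w3 : W3 ≤ max (max W1 W2) W3 := le_max_right _ _
  have hfr : ∀ (V : ℕ) (v : Zip α), V ≤ max (max W1 W2) W3 → Free ι V tmp (update z st v) := by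
    intro V v hV
    refine ⟨by rw [update_of_ne hL.ne.symm]; exact hfree.1, fun j hj => ?_⟩
    rw [update_of_ne (hL.st j (lt_of_lt_of_le hj hV))]
    exact hfree.2 j (lt_of_lt_of_le hj hV)
  have r1 := h1 (d := d) (M := M) (hL.mono w1) hb m z p hst (hfree.mono w1)
  have ha := le_two_pow' p.1.v
  have hsz : ∀ i ≤ p.1.v ^ 2 + 3, esize (gStep^[i] (gInit p)) ≤ 6 * pn p + 6 := by
    intro i hi
    rw [gIter]
    have g1 := esize_gs (2 ^ i) i p
    have g2 := esize_P0_le p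
    have g3 : 2 ^ i ≤ 2 ^ (p.1.v ^ 2 + 3) := Nat.pow_le_pow_right (by norm_num) hi
    unfold pn at g2 ⊢
    omega
  have r2 := h2 (d := d) (M := M) (hL.mono w2) hb m
    (update z st ⟨[], (enc (gInit p)).map bit⟩) (gInit p) (p.1.v ^ 2 + 3) (6 * pn p + 6)
    (by simp [HoldsVal]) (hfr W2 _ w2) (by
      intro i hi
      rw [gIter]
      simp only [gTest, decide_eq_true_eq]
      rwa [← sq]) (by
      rw [gIter]
      simp only [gTest, decide_eq_false_iff_not]
      rw [← sq]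
      exact lt_irrefl _) hsz
  rw [gIter, update_idem] at r2
  have r3 := h3 (d := d) (M := M) (hL.mono w3) hb m
    (update z st ⟨[], (enc (gEnd p)).map bit⟩) (gEnd p) (by simp [HoldsVal]) (hfr W3 _ w3)
  rw [update_idem] at r3
  refine (r1.seq (r2.seq r3)).mono ?_
  refine le_trans ?_ (he (pn p))
  have c1 : pb e1 (esize p) ≤ pb e1 (2 * pn p + 2) := pb_mono _ (esize_P0_le p)
  have c2 : pb e3 (esize (gEnd p)) ≤ pb e3 (6 * pn p + 6) := by
    have := hsz _ le_rfl
    rw [gIter] at this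
    exact pb_mono _ this
  have c3 : (p.1.v ^ 2 + 3 + 1) * pb e2 (6 * pn p + 6) ≤ (pn p + 1) * pb e2 (6 * pn p + 6) :=
    Nat.mul_le_mul_right _ (by unfold pn; omega)
  exact Nat.add_le_add c1 (Nat.add_le_add c3 c2)

end Vale.Agent.P338.R3.H235
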