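import Vale.Agent.P338.R3.H235.Setup

/-!
P338-D, module SETUP: the complete prologue and the epilogue.
-/

namespace Vale.Agent.P338.R3.H235

open Vale.Agent.P338.R2.H898 Function
open Vale.Agent.P338.R2.H235
open Vale.Agent.P338.R3.H968 (CF RN rv CPar DS fc zc sc ic cellB wz Ac bc dc)
open Vale.Agent.P338.R2.H784 (Sy)
open Vale.Agent.P338.R2.H778 (bits bits_zero)
open Vale.Agent.Lib.PolyTime (Enc enc esize pb pb_mono PT PB PBd Un)

variable {M F α : Type} [DecidableEq F] {d : α} {bit : Bool → α} {ι : ℕ → F} {W : ℕ}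

/-- Fill the empty file `f` with as many symbols `a` as `g` has symbols. -/
def fill (g f : F) (a : α) : Prog M F α := .seq (cvt g f a) (op1 f .rew)

theorem run_fill {g f : F} (hgf : g ≠ f) (a : α) (m : M) (r : List α) (z : F → Zip α)
    (hg : z g = ⟨[], r⟩) (hf : z f = ⟨[], []⟩) :
    Prog.Run d (fill g f a : Prog M F α) ⟨m, z⟩ (4 * r.length + 3)
      ⟨m, update z f ⟨[], List.replicate r.length a⟩⟩ := by
  have h1 := run_cvt (d := d) hgf a m r [] z hg hf
  have h2 := run_op1 (d := d) f .rew m (update z f ⟨List.replicate r.length a ++ [], []⟩)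
  have e : update (update z f ⟨List.replicate r.length a ++ [], []⟩) f (Op.rew.app d
      (update z f ⟨List.replicate r.length a ++ [], []⟩ f)) =
      update z f ⟨[], List.replicate r.length a⟩ := by
    simp [Op.app]
  rw [e] at h2
  exact h1.seq h2

/-- Go to the right end. -/
def toEnd (f : F) : Prog M F α := .loop (fun _ x => (x f).isSome) (op1 f .right)

theorem run_toEnd {f : F} (m : M) (r : List α) : ∀ (l : List α) (z : F → Zip α), z f = ⟨l, r⟩ →
    Prog.Run d (toEnd f : Prog M F α) ⟨m, z⟩ (2 * r.length + 1)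
      ⟨m, update z f ⟨r.reverse ++ l, []⟩⟩ := by
  induction r with
  | nil =>
    intro l z hf
    have e : update z f ⟨([] : List α).reverse ++ l, []⟩ = z := by
      rw [← update_eq_self f z, hf]
      simp
    rw [e]
    exact (Prog.Run.loopF (by simp [Store.reads, Zip.peek, hf])).mono (by omega)
  | cons a r ih =>
    intro l z hf
    have h1 := run_op1 (d := d) f .right m z
    have e1 : update z f (Op.right.app d (z f)) = update z f ⟨a :: l, r⟩ := by
      rw [hf]; rfl
    rw [e1] at h1
    have h2 := ih (a :: l) (update z f ⟨a :: l, r⟩) (by simp)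
    have h3 := Prog.Run.loopT (c := fun (_ : M) (x : F → Option α) => (x f).isSome)
      (by simp [Store.reads, Zip.peek, hf]) h1 h2
    rw [update_idem] at h3
    have e : (r.reverse ++ a :: l) = ((a :: r).reverse ++ l) := by simp
    rw [e] at h3
    exact h3.mono (by simp only [List.length_cons]; omega)

/-- Move the contents of `g` to the left of the head of `f`, in the reading order from the head. -/
def flip (g f : F) : Prog M F α := .seq (toEnd g) (popAll g f)

theorem run_flip {g f : F} (hgf : g ≠ f) (m : M) (x : List α) (z : F → Zip α)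
    (hg : z g = ⟨[], x⟩) (hf : z f = ⟨[], []⟩) :
    Prog.Run d (flip g f : Prog M F α) ⟨m, z⟩ (7 * x.length + 3)
      ⟨m, update (update z f ⟨x, []⟩) g ⟨[], []⟩⟩ := by
  have h1 := run_toEnd (d := d) (f := g) m x [] z hg
  have h2 := run_popAll (d := d) (g := g) (f := f) hgf m (x.reverse ++ []) []
    (update z g ⟨x.reverse ++ [], []⟩) (by simp) (by simp [hgf.symm, hf])
  have e : update (update (update z g ⟨x.reverse ++ [], []⟩) f
      ⟨(x.reverse ++ []).reverse ++ [], []⟩) g ⟨[], []⟩ =
      update (update z f ⟨x, []⟩) g ⟨[], []⟩ := by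
    funext y
    rcases eq_or_ne y g with rfl | h1
    · simp
    · rcases eq_or_ne y f with rfl | h2
      · simp [h1]
      · simp [h1, h2]
  rw [e] at h2
  refine (h1.seq h2).mono ?_
  simp only [List.append_nil, List.length_reverse]
  omega

/-- The data at the start: `x`, `y` are the operands, least significant bit first. -/
structure IsStart (x y : List Bool) (D : DS) : Prop where
  X : D.X = ⟨[], []⟩
  Y : D.Y = ⟨[], []⟩
  A : D.A = []
  B : D.B = []
  ix : D.ix.flatMap List.reverse = x
  iy : D.iy.flatMap List.reverse = y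
  jx : D.jx = []
  jy : D.jy = []
  out : D.out = []
  acc : D.acc = 0
  cst : D.cst = 0
  sh : D.sh = 0

open Classical in
/-- **Prologue.** The operands `x`, `y` (least significant bit first) are on the files `fx`, `fy`,
the parameters `p` on the file `st`; afterwards the files of the cell machine hold the data at the
start, and `st` holds the value `g (gEnd p)`, e.g. the parameters together with
`2 ^ (d ^ 2 + 3) + s + y` in unary (`g = gOut`, `gOut (gEnd p) = pu p`). -/
theorem exists_prologue {bf sf wf : P0 → ℕ} (hbf : PT ∅ bf) (hbb : PBd bf) (hsf : PT ∅ sf)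
    (hsb : PBd sf) (hwf : PT ∅ wf) (hwb : PBd wf) {S : Type*} [Enc S] {g : GS → S}
    (hg : PT ∅ g) :
    ∃ W e : ℕ, 2 ≤ W ∧ ∀ {A : Vale.Agent.P338.R2.H898.MTM} {M F : Type} [DecidableEq F]
      {nm : CF → F} {ι : ℕ → F} {fx fy st tmp : F}, SLay nm ι W fx fy st tmp →
      ∃ prog : Prog M F (Ac A), ∀ (m : M) (z : F → Zip (Ac A)) (p : P0) (x y : List Bool)
        (D : DS), (∀ k, z (nm k) = ⟨[], []⟩) → z fx = ⟨[], x.map bc⟩ → z fy = ⟨[], y.map bc⟩ →
        HoldsVal bc z st p → Free ι W tmp z → (cpr bf sf wf p).Ok → IsStart x y D →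
        ∃ z' : F → Zip (Ac A), Prog.Run (dc A) prog ⟨m, z⟩
          (pb e (pn p) + 90 * (cpr bf sf wf p).ell + 7 * (x.length + y.length)) ⟨m, z'⟩ ∧
          (∀ k, z' (nm k) = fc (cpr bf sf wf p) D k) ∧ z' fx = ⟨[], []⟩ ∧ z' fy = ⟨[], []⟩ ∧
          HoldsVal bc z' st (g (gEnd p)) ∧
          ∀ f, (∀ k, nm k ≠ f) → f ≠ fx → f ≠ fy → f ≠ st → z' f = z f := by
  obtain ⟨Q, W1, e1, hW1, h1⟩ := exists_emitAll (rulL bf sf wf)
    (pt_rulL hbf hbb hsf hsb hwf hwb)
  obtain ⟨pi, pc, pg, po, W2, e2, hW2, h2⟩ := exists_grow hg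
  obtain ⟨e, he⟩ : PB (fun n => pb e1 (2 * n + 2) + pb e2 n + 20) :=
    (((PB.pb e1).comp (((PB.const 2).mul PB.id).add (PB.const 2))).add (PB.pb e2)).add
      (PB.const 20)
  refine ⟨max W1 W2, e, hW1.trans (le_max_left _ _), ?_⟩
  intro A M F _ nm ι fx fy st tmp hS
  have hS1 := hS.mono (le_max_left W1 W2)
  have hS2 := hS.mono (le_max_right W1 W2)
  have hbc : (bc true : Ac A) ≠ bc false := by
    intro h
    have h1 := Sy.l.inj h
    simp [bitL] at h1
  refine ⟨.seq (emitAll bc .u st tmp ι nm Q) (.seq (arith nm)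
    (.seq (fill (nm (.r .b)) (nm .acc) (bc false))
    (.seq (fill (nm (.r .b)) (nm .cst) (bc false))
    (.seq (flip fx (nm .ix)) (.seq (flip fy (nm .iy)) (growProg bc pi pc pg po st tmp ι)))))),
    ?_⟩
  intro m z p x y D hz hzx hzy hst hfree hok hD
  set P := cpr bf sf wf p with hP
  -- the named files are rulers of length 0
  have hz0 : z = rz .u nm (fun _ => 0) z := by
    funext f
    by_cases hf : ∃ k, nm k = f
    · obtain ⟨k, rfl⟩ := hf
      rw [rz_nm hS.inj, hz k]
      rfl
    · rw [rz_of_ne]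
      exact fun k hk => hf ⟨k, hk⟩
  have r1 := h1 (d := dc A) (M := M) hS1 hbc .u m z p (fun _ => 0) hst
    (hfree.mono (le_max_left _ _)) (by
      simp [rulL]) (fun _ _ => rfl)
  rw [← hz0] at r1
  have r2 := run_arith (M := M) (d := dc A) (u := .u) hS.inj bf sf wf p hok m z
  set z2 := rz .u nm (rEnd P) z with hz2
  have z2n : ∀ k, z2 (nm k) = rul .u (rEnd P k) := fun k => rz_nm hS.inj _ _ _
  have z2o : ∀ f, (∀ k, nm k ≠ f) → z2 f = z f := fun f hf => rz_of_ne _ _ hf
  have hne : ∀ {j k : CF}, j ≠ k → nm j ≠ nm k := fun h e => h (hS.inj e)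
  have r3 := run_fill (d := dc A) (g := nm (.r .b)) (f := nm .acc) (hne (by simp))
    (bc false) m (List.replicate (rEnd P (.r .b)) Sy.u) z2 (z2n _) (z2n _)
  rw [List.length_replicate] at r3
  set z3 := update z2 (nm .acc) ⟨[], List.replicate (rEnd P (.r .b)) (bc false)⟩ with hz3
  have r4 := run_fill (d := dc A) (g := nm (.r .b)) (f := nm .cst) (hne (by simp))
    (bc false) m (List.replicate (rEnd P (.r .b)) Sy.u) z3
    (by rw [hz3, update_of_ne (hne (by simp)), z2n])
    (by rw [hz3, update_of_ne (hne (by simp)), z2n]; rfl)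
  rw [List.length_replicate] at r4
  set z4 := update z3 (nm .cst) ⟨[], List.replicate (rEnd P (.r .b)) (bc false)⟩ with hz4
  have z4o : ∀ f, (∀ k, nm k ≠ f) → z4 f = z f := by
    intro f hf
    rw [hz4, update_of_ne (hf _).symm, hz3, update_of_ne (hf _).symm, z2o f hf]
  have r5 := run_flip (d := dc A) (g := fx) (f := nm .ix) (hS.nx _).symm m (x.map bc) z4
    (by rw [z4o fx hS.nx, hzx])
    (by rw [hz4, update_of_ne (hne (by simp)), hz3, update_of_ne (hne (by simp)), z2n]; rfl)
  set z5 := update (update z4 (nm .ix) ⟨x.map bc, []⟩) fx ⟨[], []⟩ with hz5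
  have r6 := run_flip (d := dc A) (g := fy) (f := nm .iy) (hS.ny _).symm m (y.map bc) z5
    (by rw [hz5, update_of_ne hS.xy.symm, update_of_ne (hS.ny _).symm, z4o fy hS.ny, hzy])
    (by
      rw [hz5, update_of_ne (hS.nx _), update_of_ne (hne (by simp)), hz4,
        update_of_ne (hne (by simp)), hz3, update_of_ne (hne (by simp)), z2n]
      rfl)
  set z6 := update (update z5 (nm .iy) ⟨y.map bc, []⟩) fy ⟨[], []⟩ with hz6
  have z6o : ∀ f, (∀ k, nm k ≠ f) → f ≠ fx → f ≠ fy → z6 f = z f := by
    intro f hf hx hy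
    rw [hz6, update_of_ne hy, update_of_ne (hf _).symm, hz5, update_of_ne hx,
      update_of_ne (hf _).symm, z4o f hf]
  have hst6 : HoldsVal bc z6 st p := by
    unfold HoldsVal
    rw [z6o st hS.ns hS.xs.symm hS.ys.symm]
    exact hst
  have hfree6 : Free ι W2 tmp z6 := by
    refine ⟨by rw [z6o tmp hS.nt hS.xt.symm hS.yt.symm]; exact hfree.1, fun i hi => ?_⟩
    rw [z6o _ (fun k => (hS2.nι i hi k).symm) (hS2.ιx i hi) (hS2.ιy i hi)]
    exact hfree.2 i (lt_of_lt_of_le hi (le_max_right _ _))
  have r7 := h2 (d := dc A) (M := M) hS2.lay hbc m z6 p hst6 hfree6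
  set z7 := update z6 st ⟨[], (enc (g (gEnd p))).map bc⟩ with hz7
  refine ⟨z7, ?_, ?_, ?_, ?_, ?_, ?_⟩
  · refine (r1.seq (r2.seq (r3.seq (r4.seq (r5.seq (r6.seq r7)))))).mono ?_
    have hb1 : rEnd P (.r .b) = P.b := rfl
    have hY1 : 1 ≤ P.Y := hok.hY
    have hell : P.b ≤ P.ell := by
      show P.b ≤ 2 * P.Y * P.b
      exact Nat.le_mul_of_pos_left _ (by omega)
    have c1 : pb e1 (esize p) ≤ pb e1 (2 * pn p + 2) := pb_mono _ (esize_P0_le p)
    have c2 := he (pn p)
    have hPe : (cpr bf sf wf p).ell = P.ell := rfl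
    simp only [List.length_map, hb1, hPe]
    simp only [pb] at c1 c2 ⊢
    omega
  · intro k
    rw [hz7, update_of_ne (hS.ns _), hz6, update_of_ne (hS.ny _)]
    by_cases hk1 : k = .iy
    · subst hk1
      rw [update_self]
      simp only [fc, ic, hD.iy, hD.jy, List.flatten_nil, List.map_nil]
    rw [update_of_ne (hne hk1), hz5, update_of_ne (hS.nx _)]
    by_cases hk2 : k = .ix
    · subst hk2
      rw [update_self]
      simp only [fc, ic, hD.ix, hD.jx, List.flatten_nil, List.map_nil]
    rw [update_of_ne (hne hk2), hz4]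
    by_cases hk3 : k = .cst
    · subst hk3
      rw [update_self]
      simp only [fc, hD.cst, wz]
      simp [bits_zero, rEnd, rv]
    rw [update_of_ne (hne hk3), hz3]
    by_cases hk4 : k = .acc
    · subst hk4
      rw [update_self]
      simp only [fc, hD.acc]
      simp [bits_zero, rEnd, rv]
    rw [update_of_ne (hne hk4), z2n]
    cases k with
    | x => simp [fc, zc, hD.X, rEnd]
    | y => simp [fc, zc, hD.Y, rEnd]
    | a => simp [fc, sc, hD.A, rEnd]
    | b => simp [fc, sc, hD.B, rEnd]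
    | ix => exact absurd rfl hk2
    | iy => exact absurd rfl hk1
    | out => simp [fc, hD.out, rEnd]
    | acc => exact absurd rfl hk4
    | cst => exact absurd rfl hk3
    | sh => simp [fc, hD.sh, rEnd]
    | r k => rfl
    | h i => rfl
  · rw [hz7, update_of_ne hS.xs, hz6, update_of_ne hS.xy, update_of_ne (hS.nx _).symm, hz5,
      update_self]
  · rw [hz7, update_of_ne hS.ys, hz6, update_self]
  · unfold HoldsVal
    rw [hz7, update_self]
  · intro f hf hx hy hs
    rw [hz7, update_of_ne hs, z6o f hf hx hy]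

/-- **Epilogue**: the output file is rewound. -/
theorem run_epilogue {A : Vale.Agent.P338.R2.H898.MTM} {nm : CF → F} (m : M)
    (z : F → Zip (Ac A)) (P : CPar) (D : DS) (h : z (nm .out) = fc P D .out) :
    Prog.Run (dc A) (op1 (nm .out) .rew : Prog M F (Ac A)) ⟨m, z⟩ 1
      ⟨m, update z (nm .out) ⟨[], D.out.map bc⟩⟩ := by
  have h1 := run_op1 (d := dc A) (nm .out) .rew m z
  rw [h] at h1
  simpa [fc, Op.app] using h1

end Vale.Agent.P338.R3.H235
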