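import Vale.Agent.P338.R2.H235.Ctl
import Vale.Agent.Lib.PolyTime.Unary

/-!
P338-D, module SETUP: rulers. All programs here keep the memory; a ruler is a file
`⟨[], replicate n u⟩`.
-/

namespace Vale.Agent.P338.R3.H235

open Vale.Agent.P338.R2.H898 Function
open Vale.Agent.P338.R2.H235
open Vale.Agent.Lib.PolyTime (Enc enc esize pb PT PB PBd Un)

variable {M F α : Type} [DecidableEq F] {d : α} {bit : Bool → α} {ι : ℕ → F} {W : ℕ}

/-- A ruler. -/
abbrev rul (u : α) (n : ℕ) : Zip α := ⟨[], List.replicate n u⟩

/-- For every symbol of the rest of `g` append `a` to `f`. -/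
def cvtR (g f : F) (a : α) : Prog M F α :=
  .loop (fun _ x => (x g).isSome) (.seq (push f a) (op1 g .right))

theorem run_cvtR {g f : F} (hgf : g ≠ f) (a : α) (m : M) (r : List α) : ∀ (l l' : List α)
    (z : F → Zip α), z g = ⟨l, r⟩ → z f = ⟨l', []⟩ →
    Prog.Run d (cvtR g f a : Prog M F α) ⟨m, z⟩ (4 * r.length + 1)
      ⟨m, update (update z f ⟨List.replicate r.length a ++ l', []⟩) g ⟨r.reverse ++ l, []⟩⟩ := by
  induction r with
  | nil =>
    intro l l' z hg hf
    have e : update (update z f ⟨List.replicate ([] : List α).length a ++ l', []⟩) g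
        ⟨([] : List α).reverse ++ l, []⟩ = z := by
      funext x
      rcases eq_or_ne x g with rfl | hx1
      · simp [hg]
      · rcases eq_or_ne x f with rfl | hx2
        · simp [hx1, hf]
        · simp [hx1, hx2]
    rw [e]
    exact (Prog.Run.loopF (by simp [Store.reads, Zip.peek, hg])).mono (by omega)
  | cons b r ih =>
    intro l l' z hg hf
    have h1 := run_push (d := d) f a m z l' hf
    have h2 := run_op1 (d := d) g .right m (update z f ⟨a :: l', []⟩)
    have h3 := ih (b :: l) (a :: l') (update (update z f ⟨a :: l', []⟩) g ⟨b :: l, r⟩)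
      (by simp) (by simp [hgf.symm])
    have e2 : update (update z f ⟨a :: l', []⟩) g
        (Op.right.app d (update z f ⟨a :: l', []⟩ g)) =
          update (update z f ⟨a :: l', []⟩) g ⟨b :: l, r⟩ := by
      simp [hgf, hg, Op.app]
    rw [e2] at h2
    have h4 := Prog.Run.loopT (c := fun (_ : M) (x : F → Option α) => (x g).isSome)
      (by simp [Store.reads, Zip.peek, hg]) (h1.seq h2) h3
    have e : update (update (update (update z f ⟨a :: l', []⟩) g ⟨b :: l, r⟩) f
        ⟨List.replicate r.length a ++ a :: l', []⟩) g ⟨r.reverse ++ b :: l, []⟩ =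
        update (update z f ⟨List.replicate (b :: r).length a ++ l', []⟩) g
          ⟨(b :: r).reverse ++ l, []⟩ := by
      have hr : List.replicate r.length a ++ a :: l' =
          List.replicate (b :: r).length a ++ l' := by
        rw [List.length_cons, List.replicate_succ', List.append_assoc]
        rfl
      rw [hr]
      funext x
      rcases eq_or_ne x g with rfl | hx1
      · simp
      · rcases eq_or_ne x f with rfl | hx2
        · simp [hx1]
        · simp [hx1, hx2]
    rw [e] at h4
    exact h4.mono (by simp only [List.length_cons]; omega)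

/-- `run_cvtR` with rewinding: `g` has its head at the left end before and after. -/
def cvt (g f : F) (a : α) : Prog M F α := .seq (cvtR g f a) (op1 g .rew)

theorem run_cvt {g f : F} (hgf : g ≠ f) (a : α) (m : M) (r l' : List α) (z : F → Zip α)
    (hg : z g = ⟨[], r⟩) (hf : z f = ⟨l', []⟩) :
    Prog.Run d (cvt g f a : Prog M F α) ⟨m, z⟩ (4 * r.length + 2)
      ⟨m, update z f ⟨List.replicate r.length a ++ l', []⟩⟩ := by
  have h1 := run_cvtR (d := d) hgf a m r [] l' z hg hf
  have h2 := run_op1 (d := d) g .rew m
    (update (update z f ⟨List.replicate r.length a ++ l', []⟩) g ⟨r.reverse ++ [], []⟩)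
  have e : update (update (update z f ⟨List.replicate r.length a ++ l', []⟩) g
      ⟨r.reverse ++ [], []⟩) g (Op.rew.app d (update (update z f
        ⟨List.replicate r.length a ++ l', []⟩) g ⟨r.reverse ++ [], []⟩ g)) =
      update z f ⟨List.replicate r.length a ++ l', []⟩ := by
    funext x
    rcases eq_or_ne x g with rfl | hx1
    · simp [Op.app, hgf, hg]
    · rcases eq_or_ne x f with rfl | hx2
      · simp [hx1]
      · simp [hx1, hx2]
  rw [e] at h2
  exact h1.seq h2

/-- A ruler of computed length. -/
noncomputable def rulProg (bit : Bool → α) (u : α) (p : SProg) (st tmp : F) (ι : ℕ → F) (fo : F) :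
    Prog M F α :=
  .seq (callProg bit p st tmp ι) (.seq (cvtR tmp fo u) (.seq (clr tmp) (op1 fo .rew)))

theorem exists_ruler {β : Type*} [Enc β] {f : β → Un} (hf : PT ∅ f) :
    ∃ (p : SProg) (W c : ℕ), 2 ≤ W ∧ ∀ {M F α : Type} [DecidableEq F] {d : α} {bit : Bool → α}
      {ι : ℕ → F} {st tmp : F}, Lay ι W st tmp → bit true ≠ bit false →
      ∀ (u : α) (fo : F), fo ≠ tmp → (∀ i < W, ι i ≠ fo) →
      ∀ (m : M) (z : F → Zip α) (a : β), HoldsVal bit z st a → Free ι W tmp z →
        z fo = ⟨[], []⟩ →
        Prog.Run d (rulProg bit u p st tmp ι fo : Prog M F α) ⟨m, z⟩ (pb c (esize a))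
          ⟨m, update z fo (rul u (f a).v)⟩ := by
  obtain ⟨p, W, c, hW, h⟩ := exists_call hf
  obtain ⟨c1, hc1⟩ := hf.pbd
  have hPB : PB (fun n => pb c n + (4 * pb c1 n + 1) + 3) :=
    ((PB.pb c).add (((PB.const 4).mul (PB.pb c1)).add (PB.const 1))).add (PB.const 3)
  obtain ⟨c', hc'⟩ := hPB
  refine ⟨p, W, c', hW, ?_⟩
  intro M F α _ d bit ι st tmp hL hb u fo hfo hιfo m z a hst hfree hzo
  have r1 := h (d := d) (M := M) hL.inj hb hL.ne hL.st hL.tmp m z a hst hfree.1 hfree.2
  have hlen : ((enc (f a)).map bit).length = (f a).v := by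
    rw [List.length_map, Vale.Agent.Lib.PolyTime.enc_un, List.length_replicate]
  set v := (enc (f a)).map bit with hv
  have r2 := run_cvtR (d := d) (g := tmp) (f := fo) hfo.symm u m v [] []
    (update z tmp ⟨[], v⟩) (by simp) (by simp [hfo, hzo])
  rw [hlen] at r2
  set z2 := update (update (update z tmp ⟨[], v⟩) fo
    ⟨List.replicate (f a).v u ++ [], []⟩) tmp ⟨v.reverse ++ [], []⟩ with hz2
  have r3 := run_clr (d := d) tmp m z2
  have r4 := run_op1 (d := d) fo .rew m (update z2 tmp ⟨[], []⟩)
  have e4 : update (update z2 tmp ⟨[], []⟩) fo (Op.rew.app d (update z2 tmp ⟨[], []⟩ fo)) =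
      update z fo (rul u (f a).v) := by
    funext g
    rcases eq_or_ne g fo with rfl | hg'
    · simp [hz2, hfo, Op.app, rul]
    · rcases eq_or_ne g tmp with rfl | hg
      · simp [hfo.symm, hfree.1]
      · simp [hg, hg', hz2]
  rw [e4] at r4
  refine (r1.seq (r2.seq (r3.seq r4))).mono ?_
  refine le_trans ?_ (hc' (esize a))
  show _ ≤ pb c (esize a) + (4 * pb c1 (esize a) + 1) + 3
  have h3 : (f a).v ≤ pb c1 (esize a) := by
    have h : esize (f a) ≤ pb c1 (esize a) := hc1 a
    rwa [Vale.Agent.Lib.PolyTime.esize_un] at h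
  have := Nat.mul_le_mul_left 4 h3
  omega

/-! ### Doubling -/

/-- Double a ruler with the help of an empty file. -/
def dbl (r t : F) : Prog M F α := .seq (copyR r t) (.seq (popAll t r) (op1 r .rew))

theorem run_dbl {r t : F} (hrt : r ≠ t) (u : α) (n : ℕ) (m : M) (z : F → Zip α)
    (hr : z r = rul u n) (ht : z t = ⟨[], []⟩) :
    Prog.Run d (dbl r t : Prog M F α) ⟨m, z⟩ (9 * n + 4) ⟨m, update z r (rul u (2 * n))⟩ := by
  have h1 := run_copyR (d := d) hrt m (List.replicate n u) [] [] z hr ht
  rw [List.length_replicate, List.append_nil, List.reverse_replicate] at h1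
  have h2 := run_popAll (d := d) (g := t) (f := r) hrt.symm m (List.replicate n u)
    (List.replicate n u)
    (update (update z t ⟨List.replicate n u, []⟩) r ⟨List.replicate n u, []⟩)
    (by simp [hrt.symm]) (by simp)
  rw [List.length_replicate, List.reverse_replicate, List.replicate_append_replicate] at h2
  set z2 := update (update (update (update z t ⟨List.replicate n u, []⟩) r
    ⟨List.replicate n u, []⟩) r ⟨List.replicate (n + n) u, []⟩) t ⟨[], []⟩ with hz2
  have h3 := run_op1 (d := d) r .rew m z2
  have e3 : update z2 r (Op.rew.app d (z2 r)) = update z r (rul u (2 * n)) := by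
    funext g
    rcases eq_or_ne g r with rfl | hg
    · simp [hz2, hrt, Op.app, rul, two_mul]
    · rcases eq_or_ne g t with rfl | hg'
      · simp [hz2, hg, ht]
      · simp [hz2, hg, hg']
  rw [e3] at h3
  refine (h1.seq (h2.seq h3)).mono (by omega)

/-- Double `r` for every symbol of `c`; `c` is cleared. -/
def dblN (c r t : F) : Prog M F α :=
  .seq (.loop (fun _ x => (x c).isSome) (.seq (dbl r t) (op1 c .right))) (clr c)

theorem run_dblN {c r t : F} (hcr : c ≠ r) (hct : c ≠ t) (hrt : r ≠ t) (u : α) (y n : ℕ) (m : M)
    (z : F → Zip α) (hc : z c = rul u y) (hr : z r = rul u n) (ht : z t = ⟨[], []⟩)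
    (hn : 1 ≤ n) :
    Prog.Run d (dblN c r t : Prog M F α) ⟨m, z⟩ (20 * (2 ^ y * n) + 3)
      ⟨m, update (update z r (rul u (2 ^ y * n))) c ⟨[], []⟩⟩ := by
  have h1 : ∀ (y : ℕ) (l : List α) (n : ℕ) (z : F → Zip α), 1 ≤ n →
      z c = ⟨l, List.replicate y u⟩ → z r = rul u n → z t = ⟨[], []⟩ →
      Prog.Run d (.loop (fun _ x => (x c).isSome) (.seq (dbl r t) (op1 c .right)) : Prog M F α)
        ⟨m, z⟩ (20 * (2 ^ y * n) - 19 * n)
        ⟨m, update (update z r (rul u (2 ^ y * n))) c ⟨List.replicate y u ++ l, []⟩⟩ := by
    intro y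
    induction y with
    | zero =>
      intro l n z hn hc hr ht
      have e : update (update z r (rul u (2 ^ 0 * n))) c ⟨List.replicate 0 u ++ l, []⟩ = z := by
        funext g
        rcases eq_or_ne g c with rfl | hg
        · simp [hc]
        · rcases eq_or_ne g r with rfl | hg'
          · simp [hg, hr, rul]
          · simp [hg, hg']
      rw [e]
      exact (Prog.Run.loopF (by simp [Store.reads, Zip.peek, hc])).mono (by omega)
    | succ y ih =>
      intro l n z hn hc hr ht
      have a1 := run_dbl (d := d) hrt u n m z hr ht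
      have a2 := run_op1 (d := d) c .right m (update z r (rul u (2 * n)))
      have e2 : update (update z r (rul u (2 * n))) c
          (Op.right.app d (update z r (rul u (2 * n)) c)) =
          update (update z r (rul u (2 * n))) c ⟨u :: l, List.replicate y u⟩ := by
        simp [hcr, hc, Op.app, List.replicate_succ]
      rw [e2] at a2
      have a3 := ih (u :: l) (2 * n) (update (update z r (rul u (2 * n))) c
        ⟨u :: l, List.replicate y u⟩) (by omega) (by simp) (by simp [hcr.symm])
        (by simp [hct.symm, hrt.symm, ht])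
      have a4 := Prog.Run.loopT (c := fun (_ : M) (x : F → Option α) => (x c).isSome)
        (by simp [Store.reads, Zip.peek, hc, List.replicate_succ]) (a1.seq a2) a3
      have e : update (update (update (update z r (rul u (2 * n))) c
          ⟨u :: l, List.replicate y u⟩) r (rul u (2 ^ y * (2 * n)))) c
          ⟨List.replicate y u ++ u :: l, []⟩ =
          update (update z r (rul u (2 ^ (y + 1) * n))) c
            ⟨List.replicate (y + 1) u ++ l, []⟩ := by
        have h5 : 2 ^ y * (2 * n) = 2 ^ (y + 1) * n := by ring
        have h6 : List.replicate y u ++ u :: l = List.replicate (y + 1) u ++ l := by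
          rw [List.replicate_succ', List.append_assoc]
          rfl
        rw [h5, h6]
        funext g
        rcases eq_or_ne g c with rfl | hg
        · simp
        · rcases eq_or_ne g r with rfl | hg'
          · simp [hg]
          · simp [hg, hg']
      rw [e] at a4
      refine a4.mono ?_
      have h7 : 2 ^ (y + 1) * n = 2 * (2 ^ y * n) := by ring
      have h8 : 2 ^ y * (2 * n) = 2 * (2 ^ y * n) := by ring
      have h9 : n ≤ 2 ^ y * n := Nat.le_mul_of_pos_left _ (by positivity)
      rw [h7, h8]
      omega
  have h2 := h1 y [] n z hn hc hr ht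
  have h3 := run_clr (d := d) c m
    (update (update z r (rul u (2 ^ y * n))) c ⟨List.replicate y u ++ [], []⟩)
  rw [update_idem] at h3
  have h9 : n ≤ 2 ^ y * n := Nat.le_mul_of_pos_left _ (by positivity)
  refine (h2.seq h3).mono (by omega)

/-! ### Products -/

/-- Append the product of the rulers `a`, `b` to `c`. -/
def mulR (a b c : F) : Prog M F α :=
  .seq (.loop (fun _ x => (x a).isSome) (.seq (copyR b c) (.seq (op1 b .rew) (op1 a .right))))
    (op1 a .rew)

theorem run_mulR {a b c : F} (hab : a ≠ b) (hac : a ≠ c) (hbc : b ≠ c) (u : α) (p q : ℕ) (m : M)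
    (z : F → Zip α) (ha : z a = rul u p) (hb : z b = rul u q) (k : ℕ)
    (hc : z c = ⟨List.replicate k u, []⟩) :
    Prog.Run d (mulR a b c : Prog M F α) ⟨m, z⟩ (p * (4 * q + 4) + 2)
      ⟨m, update z c ⟨List.replicate (p * q + k) u, []⟩⟩ := by
  have h1 : ∀ (p k : ℕ) (l : List α) (z : F → Zip α), z a = ⟨l, List.replicate p u⟩ →
      z b = rul u q → z c = ⟨List.replicate k u, []⟩ →
      Prog.Run d (.loop (fun _ x => (x a).isSome) (.seq (copyR b c) (.seq (op1 b .rew)
        (op1 a .right))) : Prog M F α) ⟨m, z⟩ (p * (4 * q + 4) + 1)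
        ⟨m, update (update z c ⟨List.replicate (p * q + k) u, []⟩) a
          ⟨List.replicate p u ++ l, []⟩⟩ := by
    intro p
    induction p with
    | zero =>
      intro k l z ha hb hc
      have e : update (update z c ⟨List.replicate (0 * q + k) u, []⟩) a
          ⟨List.replicate 0 u ++ l, []⟩ = z := by
        funext g
        rcases eq_or_ne g a with rfl | hg
        · simp [ha]
        · rcases eq_or_ne g c with rfl | hg'
          · simp [hg, hc]
          · simp [hg, hg']
      rw [e]
      exact (Prog.Run.loopF (by simp [Store.reads, Zip.peek, ha])).mono (by omega)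
    | succ p ih =>
      intro k l z ha hb hc
      have a1 := run_copyR (d := d) hbc m (List.replicate q u) [] (List.replicate k u) z hb hc
      rw [List.length_replicate, List.append_nil, List.reverse_replicate,
        List.replicate_append_replicate] at a1
      set z1 := update (update z c ⟨List.replicate (q + k) u, []⟩) b ⟨List.replicate q u, []⟩
        with hz1
      have a2 := run_op1 (d := d) b .rew m z1
      have e2 : update z1 b (Op.rew.app d (z1 b)) =
          update z c ⟨List.replicate (q + k) u, []⟩ := by
        funext g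
        rcases eq_or_ne g b with rfl | hg
        · simp [hz1, Op.app, hbc, hb, rul]
        · simp [hz1, hg]
      rw [e2] at a2
      have a3 := run_op1 (d := d) a .right m (update z c ⟨List.replicate (q + k) u, []⟩)
      have e3 : update (update z c ⟨List.replicate (q + k) u, []⟩) a
          (Op.right.app d (update z c ⟨List.replicate (q + k) u, []⟩ a)) =
          update (update z c ⟨List.replicate (q + k) u, []⟩) a
            ⟨u :: l, List.replicate p u⟩ := by
        simp [hac, ha, Op.app, List.replicate_succ]
      rw [e3] at a3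
      have a4 := ih (q + k) (u :: l) (update (update z c ⟨List.replicate (q + k) u, []⟩) a
        ⟨u :: l, List.replicate p u⟩) (by simp) (by simp [hab.symm, hbc, hb])
        (by simp [hac.symm])
      have a5 := Prog.Run.loopT (c := fun (_ : M) (x : F → Option α) => (x a).isSome)
        (by simp [Store.reads, Zip.peek, ha, List.replicate_succ]) (a1.seq (a2.seq a3)) a4
      have e : update (update (update (update z c ⟨List.replicate (q + k) u, []⟩) a
          ⟨u :: l, List.replicate p u⟩) c ⟨List.replicate (p * q + (q + k)) u, []⟩) a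
          ⟨List.replicate p u ++ u :: l, []⟩ =
          update (update z c ⟨List.replicate ((p + 1) * q + k) u, []⟩) a
            ⟨List.replicate (p + 1) u ++ l, []⟩ := by
        have h5 : p * q + (q + k) = (p + 1) * q + k := by ring
        have h6 : List.replicate p u ++ u :: l = List.replicate (p + 1) u ++ l := by
          rw [List.replicate_succ', List.append_assoc]
          rfl
        rw [h5, h6]
        funext g
        rcases eq_or_ne g a with rfl | hg
        · simp
        · rcases eq_or_ne g c with rfl | hg'
          · simp [hg]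
          · simp [hg, hg']
      rw [e] at a5
      refine a5.mono ?_
      have : (p + 1) * (4 * q + 4) = p * (4 * q + 4) + (4 * q + 4) := by ring
      omega
  have h2 := h1 p k [] z ha hb hc
  have h3 := run_op1 (d := d) a .rew m (update (update z c ⟨List.replicate (p * q + k) u, []⟩) a
    ⟨List.replicate p u ++ [], []⟩)
  have e3 : update (update (update z c ⟨List.replicate (p * q + k) u, []⟩) a
      ⟨List.replicate p u ++ [], []⟩) a (Op.rew.app d (update (update z c
        ⟨List.replicate (p * q + k) u, []⟩) a ⟨List.replicate p u ++ [], []⟩ a)) =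
      update z c ⟨List.replicate (p * q + k) u, []⟩ := by
    funext g
    rcases eq_or_ne g a with rfl | hg
    · simp [Op.app, hac, ha, rul]
    · rcases eq_or_ne g c with rfl | hg'
      · simp [hg]
      · simp [hg, hg']
  rw [e3] at h3
  exact (h2.seq h3).mono (by omega)

/-- The product of the rulers `a`, `b` on the empty file `c`. -/
def mulRul (a b c : F) : Prog M F α := .seq (mulR a b c) (op1 c .rew)

theorem run_mulRul {a b c : F} (hab : a ≠ b) (hac : a ≠ c) (hbc : b ≠ c) (u : α) (p q : ℕ)
    (m : M) (z : F → Zip α) (ha : z a = rul u p) (hb : z b = rul u q) (hc : z c = ⟨[], []⟩) :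
    Prog.Run d (mulRul a b c : Prog M F α) ⟨m, z⟩ (p * (4 * q + 4) + 3)
      ⟨m, update z c (rul u (p * q))⟩ := by
  have h1 := run_mulR (d := d) hab hac hbc u p q m z ha hb 0 (by simpa using hc)
  have h2 := run_op1 (d := d) c .rew m (update z c ⟨List.replicate (p * q + 0) u, []⟩)
  have e : update (update z c ⟨List.replicate (p * q + 0) u, []⟩) c (Op.rew.app d
      (update z c ⟨List.replicate (p * q + 0) u, []⟩ c)) = update z c (rul u (p * q)) := by
    simp [Op.app, rul]
  rw [e] at h2
  exact h1.seq h2

end Vale.Agent.P338.R3.H235
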