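import Vale.Agent.P338.R3.H235.Rul
import Vale.Agent.P338.R3.H235.Grow
import Vale.Agent.P338.R3.H968.Cell

/-!
P338-D, module SETUP: from the files of the core program (operands, parameters) to the files of the
cell machine and the parameters of the control, and the final rewinding.
-/

namespace Vale.Agent.P338.R3.H235

open Vale.Agent.P338.R2.H898 Function
open Vale.Agent.P338.R2.H235
open Vale.Agent.P338.R3.H968 (CF RN rv CPar)
open Vale.Agent.Lib.PolyTime (Enc enc esize pb pb_mono PT PB PBd Un)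

variable {M F α : Type} [DecidableEq F] {d : α} {bit : Bool → α} {ι : ℕ → F} {W : ℕ}

/-- The layout: `nm` names the files of the cell machine. -/
structure SLay (nm : CF → F) (ι : ℕ → F) (W : ℕ) (fx fy st tmp : F) : Prop where
  inj : Injective nm
  lay : Lay ι W st tmp
  nx : ∀ k, nm k ≠ fx
  ny : ∀ k, nm k ≠ fy
  ns : ∀ k, nm k ≠ st
  nt : ∀ k, nm k ≠ tmp
  nι : ∀ i < W, ∀ k, ι i ≠ nm k
  xy : fx ≠ fy
  xs : fx ≠ st
  ys : fy ≠ st
  xt : fx ≠ tmp
  yt : fy ≠ tmp
  ιx : ∀ i < W, ι i ≠ fx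
  ιy : ∀ i < W, ι i ≠ fy

omit [DecidableEq F] in
theorem SLay.mono {nm : CF → F} {V W : ℕ} {fx fy st tmp : F} (h : SLay nm ι W fx fy st tmp)
    (hVW : V ≤ W) : SLay nm ι V fx fy st tmp :=
  { h with
    lay := h.lay.mono hVW
    nι := fun i hi => h.nι i (lt_of_lt_of_le hi hVW)
    ιx := fun i hi => h.ιx i (lt_of_lt_of_le hi hVW)
    ιy := fun i hi => h.ιy i (lt_of_lt_of_le hi hVW) }

/-! ### Emission of a list of rulers -/

/-- The store whose named files are the rulers of lengths `R`. -/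
noncomputable def rz (u : α) (nm : CF → F) (R : CF → ℕ) (z : F → Zip α) : F → Zip α :=
  Function.extend nm (fun k => rul u (R k)) z

omit [DecidableEq F] in
theorem rz_nm {u : α} {nm : CF → F} (hinj : Injective nm) (R : CF → ℕ) (z : F → Zip α) (k : CF) :
    rz u nm R z (nm k) = rul u (R k) := hinj.extend_apply _ _ _

omit [DecidableEq F] in
theorem rz_of_ne {u : α} {nm : CF → F} (R : CF → ℕ) (z : F → Zip α) {f : F}
    (h : ∀ k, nm k ≠ f) : rz u nm R z f = z f :=
  Function.extend_apply' _ _ _ (by rintro ⟨k, hk⟩; exact h k hk)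

theorem rz_upd {u : α} {nm : CF → F} (hinj : Injective nm) (R : CF → ℕ) (z : F → Zip α) (k : CF)
    (n : ℕ) : update (rz u nm R z) (nm k) (rul u n) = rz u nm (update R k n) z := by
  funext f
  by_cases hf : ∃ j, nm j = f
  · obtain ⟨j, rfl⟩ := hf
    rw [rz_nm hinj]
    by_cases hj : j = k
    · subst hj; simp
    · rw [update_of_ne (fun e => hj (hinj e)), update_of_ne hj, rz_nm hinj]
  · have h : ∀ j, nm j ≠ f := fun j e => hf ⟨j, e⟩
    rw [rz_of_ne _ _ h, update_of_ne (fun e => h k e.symm), rz_of_ne _ _ h]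

/-- Emission of a list of rulers. -/
noncomputable def emitAll (bit : Bool → α) (u : α) (st tmp : F) (ι : ℕ → F) (nm : CF → F) :
    List (CF × SProg) → Prog M F α
  | [] => nop
  | x :: l => .seq (rulProg bit u x.2 st tmp ι (nm x.1)) (emitAll bit u st tmp ι nm l)

/-- The lengths after the emission. -/
def lens {β : Type} (a : β) : List (CF × (β → Un)) → (CF → ℕ) → CF → ℕ
  | [], R => R
  | x :: l, R => lens a l (update R x.1 (x.2 a).v)

theorem exists_emitAll {β : Type} [Enc β] (L : List (CF × (β → Un)))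
    (hL : ∀ x ∈ L, PT ∅ x.2) :
    ∃ (Q : List (CF × SProg)) (W e : ℕ), 2 ≤ W ∧ ∀ {M F α : Type} [DecidableEq F] {d : α}
      {bit : Bool → α} {ι : ℕ → F} {fx fy st tmp : F} {nm : CF → F},
      SLay nm ι W fx fy st tmp → bit true ≠ bit false →
      ∀ (u : α) (m : M) (z : F → Zip α) (a : β) (R : CF → ℕ), HoldsVal bit z st a →
        Free ι W tmp z → (L.map Prod.fst).Nodup → (∀ x ∈ L, R x.1 = 0) →
        Prog.Run d (emitAll bit u st tmp ι nm Q : Prog M F α) ⟨m, rz u nm R z⟩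
          (pb e (esize a)) ⟨m, rz u nm (lens a L R) z⟩ := by
  induction L with
  | nil =>
    refine ⟨[], 2, 0, le_rfl, ?_⟩
    intro M F α _ d bit ι fx fy st tmp nm hS hb u m z a R _ _ _ _
    exact (run_nop m _).mono (by simp [pb])
  | cons x l ih =>
    obtain ⟨Q, W1, e1, hW1, h1⟩ := ih fun y hy => hL y (List.mem_cons_of_mem _ hy)
    obtain ⟨p, W2, e2, hW2, h2⟩ := exists_ruler (hL x List.mem_cons_self)
    obtain ⟨e, he⟩ := (PB.pb e1).add (PB.pb e2)
    refine ⟨(x.1, p) :: Q, max W1 W2, e, hW1.trans (le_max_left _ _), ?_⟩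
    intro M F α _ d bit ι fx fy st tmp nm hS hb u m z a R hst hfree hnd h0
    have hS1 := hS.mono (le_max_left W1 W2)
    have hS2 := hS.mono (le_max_right W1 W2)
    have hst' : HoldsVal bit (rz u nm R z) st a := by
      unfold HoldsVal
      rw [rz_of_ne _ _ hS.ns]
      exact hst
    have hfree' : Free ι W2 tmp (rz u nm R z) := by
      refine ⟨by rw [rz_of_ne _ _ hS.nt]; exact hfree.1, fun i hi => ?_⟩
      rw [rz_of_ne _ _ (fun k => (hS2.nι i hi k).symm)]
      exact hfree.2 i (lt_of_lt_of_le hi (le_max_right _ _))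
    rw [List.map_cons, List.nodup_cons] at hnd
    have r1 := h2 (d := d) (M := M) hS2.lay hb u (nm x.1) (hS.nt _) (fun i hi => hS2.nι i hi _)
      m (rz u nm R z) a hst' hfree' (by
        rw [rz_nm hS.inj, h0 x List.mem_cons_self]; rfl)
    rw [rz_upd hS.inj] at r1
    have r2 := h1 (d := d) (M := M) hS1 hb u m z a (update R x.1 (x.2 a).v) hst
      (hfree.mono (le_max_left _ _)) hnd.2 (by
        intro y hy
        rw [update_of_ne]
        · exact h0 y (List.mem_cons_of_mem _ hy)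
        · intro e
          exact hnd.1 (e ▸ List.mem_map_of_mem hy))
    refine (r1.seq r2).mono ?_
    have := he (esize a)
    simp only [pb] at this ⊢
    omega

/-! ### Arithmetic of rulers -/

/-- A program on rulers. -/
def RunR (d u : α) (nm : CF → F) (P : Prog M F α) (t : ℕ) (R R' : CF → ℕ) : Prop :=
  ∀ (m : M) (z : F → Zip α), Prog.Run d P ⟨m, rz u nm R z⟩ t ⟨m, rz u nm R' z⟩

section RunR

variable {u : α} {nm : CF → F} {P Q : Prog M F α} {t t' : ℕ} {R R' R'' : CF → ℕ}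

theorem RunR.seq (h : RunR d u nm P t R R') (h' : RunR d u nm Q t' R' R'') :
    RunR d u nm (.seq P Q) (t + t') R R'' := fun m z => (h m z).seq (h' m z)

theorem RunR.mono (h : RunR d u nm P t R R') (ht : t ≤ t') : RunR d u nm P t' R R' :=
  fun m z => (h m z).mono ht

theorem RunR.mul (hinj : Injective nm) {f g c : CF} (hab : f ≠ g) (hac : f ≠ c) (hbc : g ≠ c)
    {p q : ℕ} (ha : R f = p) (hb : R g = q) (hc : R c = 0) :
    RunR d u nm (mulRul (nm f) (nm g) (nm c) : Prog M F α) (p * (4 * q + 4) + 3) R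
      (update R c (p * q)) := by
  intro m z
  have := run_mulRul (d := d) (a := nm f) (b := nm g) (c := nm c) (fun e => hab (hinj e))
    (fun e => hac (hinj e)) (fun e => hbc (hinj e)) u p q m (rz u nm R z)
    (by rw [rz_nm hinj, ha]) (by rw [rz_nm hinj, hb]) (by rw [rz_nm hinj, hc]; rfl)
  rwa [rz_upd hinj] at this

theorem RunR.clr (hinj : Injective nm) (c : CF) :
    RunR d u nm (Vale.Agent.P338.R2.H235.clr (nm c) : Prog M F α) 2 R (update R c 0) := by
  intro m z
  have := run_clr (d := d) (nm c) m (rz u nm R z)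
  rwa [show (⟨[], []⟩ : Zip α) = rul u 0 from rfl, rz_upd hinj] at this

theorem RunR.dblN (hinj : Injective nm) {c r t : CF} (hcr : c ≠ r) (hct : c ≠ t) (hrt : r ≠ t)
    {y n : ℕ} (hc : R c = y) (hr : R r = n) (ht : R t = 0) (hn : 1 ≤ n) :
    RunR d u nm (H235.dblN (nm c) (nm r) (nm t) : Prog M F α) (20 * (2 ^ y * n) + 3) R
      (update (update R r (2 ^ y * n)) c 0) := by
  intro m z
  have := run_dblN (d := d) (c := nm c) (r := nm r) (t := nm t) (fun e => hcr (hinj e))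
    (fun e => hct (hinj e)) (fun e => hrt (hinj e)) u y n m (rz u nm R z)
    (by rw [rz_nm hinj, hc]) (by rw [rz_nm hinj, hr]) (by rw [rz_nm hinj, ht]; rfl) hn
  rw [rz_upd hinj, show (⟨[], []⟩ : Zip α) = rul u 0 from rfl, rz_upd hinj] at this
  exact this

end RunR

/-! ### The rulers of the cell machine -/

section rulers

/-- The rulers of polynomial length. -/
def rulL (bf sf wf : P0 → ℕ) : List (CF × (P0 → Un)) :=
  [(.r .w, fun p => ⟨wf p⟩), (.r .b, fun p => ⟨bf p⟩), (.r .b2, fun p => ⟨2 * bf p⟩),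
    (.r .q, fun p => ⟨3 * bf p - sf p⟩), (.r .t, fun p => ⟨2 * bf p - sf p⟩),
    (.r .s, fun p => ⟨sf p⟩), (.r .s1, fun p => ⟨sf p - 1⟩), (.r .bs, fun p => ⟨bf p - sf p⟩),
    (.r .bw, fun p => ⟨bf p - wf p⟩), (.r .bsw, fun p => ⟨bf p - sf p - wf p⟩),
    (.h 0, fun p => p.2.2), (.h 1, fun _ => ⟨2⟩), (.h 2, fun p => ⟨3 * bf p + 1⟩),
    (.r .Y, fun _ => ⟨1⟩)]

theorem pt_rulL {bf sf wf : P0 → ℕ} (hb : PT ∅ bf) (hb' : PBd bf) (hs : PT ∅ sf) (hs' : PBd sf)
    (hw : PT ∅ wf) (hw' : PBd wf) : ∀ x ∈ rulL bf sf wf, PT ∅ x.2 := by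
  intro x hx
  simp only [rulL, List.mem_cons, List.not_mem_nil, or_false] at hx
  rcases hx with rfl | rfl | rfl | rfl | rfl | rfl | rfl | rfl | rfl | rfl | rfl | rfl | rfl | rfl
  · exact PT.mkUn hw hw'
  · exact PT.mkUn hb hb'
  · exact PT.mkUn ((PT.const 2).mul hb) ((PBd.const 2).mul hb')
  · exact PT.mkUn (((PT.const 3).mul hb).sub hs)
      (((PBd.const 3).mul hb').mono fun _ => Nat.sub_le _ _)
  · exact PT.mkUn (((PT.const 2).mul hb).sub hs)
      (((PBd.const 2).mul hb').mono fun _ => Nat.sub_le _ _)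
  · exact PT.mkUn hs hs'
  · exact PT.mkUn (hs.sub (PT.const 1)) (hs'.mono fun _ => Nat.sub_le _ _)
  · exact PT.mkUn (hb.sub hs) (hb'.mono fun _ => Nat.sub_le _ _)
  · exact PT.mkUn (hb.sub hw) (hb'.mono fun _ => Nat.sub_le _ _)
  · exact PT.mkUn ((hb.sub hs).sub hw)
      (hb'.mono fun _ => (Nat.sub_le _ _).trans (Nat.sub_le _ _))
  · exact PT.snd (PT.snd PT.id)
  · exact PT.const _
  · exact PT.mkUn (((PT.const 3).mul hb).add (PT.const 1)) (((PBd.const 3).mul hb').add
      (PBd.const 1))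
  · exact PT.const _

/-- The parameters of the cell machine. -/
def cpr (bf sf wf : P0 → ℕ) (p : P0) : CPar := ⟨bf p, 2 ^ p.2.2.v, sf p, wf p⟩

/-- The lengths of all rulers. -/
def rEnd (P : CPar) : CF → ℕ
  | .r k => rv P k
  | _ => 0

/-- The arithmetic of the rulers. -/
def arith (nm : CF → F) : Prog M F α :=
  .seq (dblN (nm (.h 0)) (nm (.r .Y)) (nm (.h 3)))
    (.seq (mulRul (nm (.h 1)) (nm (.r .Y)) (nm (.r .nw)))
    (.seq (mulRul (nm (.r .nw)) (nm (.r .b)) (nm (.r .ell)))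
    (.seq (mulRul (nm (.h 2)) (nm (.r .nw)) (nm (.r .b3)))
    (.seq (mulRul (nm (.r .Y)) (nm (.r .w)) (nm (.r .Yw)))
    (.seq (mulRul (nm (.r .Y)) (nm (.r .b)) (nm (.r .Yb)))
    (.seq (Vale.Agent.P338.R2.H235.clr (nm (.h 1)))
      (Vale.Agent.P338.R2.H235.clr (nm (.h 2)))))))))

theorem run_arith {u : α} {nm : CF → F} (hinj : Injective nm) (bf sf wf : P0 → ℕ) (p : P0)
    (hok : (cpr bf sf wf p).Ok) :
    RunR d u nm (arith nm : Prog M F α) (80 * (cpr bf sf wf p).ell)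
      (lens p (rulL bf sf wf) fun _ => 0) (rEnd (cpr bf sf wf p)) := by
  set R1 := lens p (rulL bf sf wf) fun _ => 0 with hR1
  have s1 := RunR.dblN (M := M) (d := d) (u := u) (nm := nm) (R := R1) hinj (c := .h 0)
    (r := .r .Y) (t := .h 3) (y := p.2.2.v) (n := 1) (by simp) (by simp) (by simp)
    (by simp [hR1, lens, rulL]) (by simp [hR1, lens, rulL])
    (by simp [hR1, lens, rulL]) le_rfl
  set R2 := update (update R1 (.r .Y) (2 ^ p.2.2.v * 1)) (.h 0) 0 with hR2
  have s2 := RunR.mul (M := M) (d := d) (u := u) (nm := nm) (R := R2) hinj (f := .h 1)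
    (g := .r .Y) (c := .r .nw) (p := 2) (q := 2 ^ p.2.2.v) (by simp) (by simp) (by simp)
    (by simp [hR2, hR1, lens, rulL]) (by simp [hR2])
    (by simp [hR2, hR1, lens, rulL])
  set R3 := update R2 (.r .nw) (2 * 2 ^ p.2.2.v) with hR3
  have s3 := RunR.mul (M := M) (d := d) (u := u) (nm := nm) (R := R3) hinj (f := .r .nw)
    (g := .r .b) (c := .r .ell) (p := 2 * 2 ^ p.2.2.v) (q := bf p) (by simp) (by simp) (by simp)
    (by simp [hR3]) (by simp [hR3, hR2, hR1, lens, rulL])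
    (by simp [hR3, hR2, hR1, lens, rulL])
  set R4 := update R3 (.r .ell) (2 * 2 ^ p.2.2.v * bf p) with hR4
  have s4 := RunR.mul (M := M) (d := d) (u := u) (nm := nm) (R := R4) hinj (f := .h 2)
    (g := .r .nw) (c := .r .b3) (p := 3 * bf p + 1) (q := 2 * 2 ^ p.2.2.v) (by simp) (by simp)
    (by simp) (by simp [hR4, hR3, hR2, hR1, lens, rulL]) (by simp [hR4, hR3])
    (by simp [hR4, hR3, hR2, hR1, lens, rulL])
  set R5 := update R4 (.r .b3) ((3 * bf p + 1) * (2 * 2 ^ p.2.2.v)) with hR5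
  have s5 := RunR.mul (M := M) (d := d) (u := u) (nm := nm) (R := R5) hinj (f := .r .Y)
    (g := .r .w) (c := .r .Yw) (p := 2 ^ p.2.2.v) (q := wf p) (by simp) (by simp)
    (by simp) (by simp [hR5, hR4, hR3, hR2])
    (by simp [hR5, hR4, hR3, hR2, hR1, lens, rulL])
    (by simp [hR5, hR4, hR3, hR2, hR1, lens, rulL])
  set R6 := update R5 (.r .Yw) (2 ^ p.2.2.v * wf p) with hR6
  have s6 := RunR.mul (M := M) (d := d) (u := u) (nm := nm) (R := R6) hinj (f := .r .Y)
    (g := .r .b) (c := .r .Yb) (p := 2 ^ p.2.2.v) (q := bf p) (by simp) (by simp)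
    (by simp) (by simp [hR6, hR5, hR4, hR3, hR2])
    (by simp [hR6, hR5, hR4, hR3, hR2, hR1, lens, rulL])
    (by simp [hR6, hR5, hR4, hR3, hR2, hR1, lens, rulL])
  set R7 := update R6 (.r .Yb) (2 ^ p.2.2.v * bf p) with hR7
  have s7 := RunR.clr (M := M) (d := d) (u := u) (nm := nm) (R := R7) hinj (.h 1)
  have s8 := RunR.clr (M := M) (d := d) (u := u) (nm := nm) (R := update R7 (.h 1) 0) hinj (.h 2)
  have e : update (update R7 (.h 1) 0) (.h 2) 0 = rEnd (cpr bf sf wf p) := by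
    funext k
    cases k with
    | r k =>
      cases k with
      | Y => exact Nat.mul_one _
      | _ => rfl
    | h i => fin_cases i <;> rfl
    | _ => rfl
  rw [e] at s8
  refine (s1.seq (s2.seq (s3.seq (s4.seq (s5.seq (s6.seq (s7.seq s8))))))).mono ?_
  have hbb := hok.hb
  simp only [cpr] at hbb
  simp only [cpr, CPar.ell, CPar.nw]
  set Y := 2 ^ p.2.2.v with hY
  have hY1 : 1 ≤ Y := Nat.one_le_two_pow
  have hb1 : 1 ≤ bf p := by omega
  have hwb : wf p ≤ bf p := by omega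
  have g1 : Y * 1 ≤ Y * bf p := Nat.mul_le_mul_left _ hb1
  have g2 : Y * wf p ≤ Y * bf p := Nat.mul_le_mul_left _ hwb
  have g3 : 1 * bf p ≤ Y * bf p := Nat.mul_le_mul_right _ hY1
  have e1 : 2 * Y * (4 * bf p + 4) = 8 * (Y * bf p) + 8 * Y := by ring
  have e2 : 2 * Y * bf p = 2 * (Y * bf p) := by ring
  have e5 : (3 * bf p + 1) * (4 * (2 * Y) + 4) = 24 * (Y * bf p) + 12 * bf p + 8 * Y + 4 := by
    ring
  have e3 : Y * (4 * wf p + 4) = 4 * (Y * wf p) + 4 * Y := by ring
  have e4 : Y * (4 * bf p + 4) = 4 * (Y * bf p) + 4 * Y := by ring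
  rw [e1, e2, e3, e4, e5]
  omega

end rulers

end Vale.Agent.P338.R3.H235
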