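import Vale.Agent.P338.R3.H235.Prologue
import Vale.Agent.P338.R3.H898.CoreHas
import Vale.Agent.P338.R3.H121.Par
import Vale.Agent.P338.R3.H313.Par

/-!
P338-D, module SETUP: the prologue as the setup of the core program (`SetupOK`).
-/

namespace Vale.Agent.P338.R3.H235

open Vale.Agent.P338.R2.H898 Function
open Vale.Agent.P338.R2.H235
open Vale.Agent.P338.R2.H968.CallEnv (mem0)
open Vale.Agent.P338.R3.H968 (CPar DS FT Ac bc dc fc ft)
open Vale.Agent.P338.R3.H898 (SetupOK InF inF repD)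
open Vale.Agent.P338.R3.H772 (coreIn)
open Vale.Agent.P338.R3.H121 (pd ps py cpar cpar_ok)
open Vale.Agent.P338.R3.H313 (PV)
open Vale.Agent.P338.R3.H501.Rad (aR)
open Vale.Agent.P338.D.CM (allZ)
open Vale.Agent.Lib.PolyTime (Enc enc esize pb pb_mono PT PB PBd Un)

/-- The names of the files of the cell machine among the files of the core program. -/
def nmC (A : MTM) (W : ℕ) (k : H968.CF) : D.CM.CF (FT A) Bool W := .dat (.inl k)

theorem slay_core {A : MTM} {V W : ℕ} (h : V ≤ W) :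
    SLay (nmC A W) (D.CM.CF.ι (FT A) Bool W) V (.dat (inF A).fx) (.dat (inF A).fy) .st .tmp where
  inj k j e := by simpa [nmC] using e
  lay := D.CM.CF.lay h
  nx k := by simp [nmC, inF]
  ny k := by simp [nmC, inF]
  ns k := by simp [nmC]
  nt k := by simp [nmC]
  nι i hi k := by rw [D.CM.CF.ι_of_lt (hi.trans_le h)]; simp [nmC]
  xy := by simp [inF]
  xs := by simp
  ys := by simp
  xt := by simp
  yt := by simp
  ιx i hi := by rw [D.CM.CF.ι_of_lt (hi.trans_le h)]; simp
  ιy i hi := by rw [D.CM.CF.ι_of_lt (hi.trans_le h)]; simp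

/-- **The setup of the core program**, for general parameter functions of the cells. -/
theorem setupOK_of {bf sf wf : P0 → ℕ} (hbf : PT ∅ bf) (hbb : PBd bf) (hsf : PT ∅ sf)
    (hsb : PBd sf) (hwf : PT ∅ wf) (hwb : PBd wf) {S : Type} [Enc S] {g : GS → S}
    (hg : PT ∅ g) :
    ∃ e : ℕ, ∀ {PP : Type} [Enc PP] {A : MTM} {V : Set P0} {cap : P0 → ℕ} {big : P0 → PP}
      {D0 : P0 → List Bool → List Bool → DS} (_ : ∀ p ∈ V, enc (big p) = enc (g (gEnd p)))
      (_ : ∀ p ∈ V, (cpr bf sf wf p).Ok)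
      (_ : ∀ p ∈ V, ∀ x y : List Bool, x.length = cap p → y.length = cap p →
        IsStart x y (D0 p x y)),
      SetupOK (inF A) V cap big (cpr bf sf wf) D0 fun p =>
        pb e (pn p) + 90 * (cpr bf sf wf p).ell + 14 * cap p := by
  obtain ⟨W0, e, hW0, h⟩ := exists_prologue hbf hbb hsf hsb hwf hwb hg
  refine ⟨e, ?_⟩
  intro PP _ A V cap big D0 hbig hok hD
  refine ⟨W0, fun W hW => ?_⟩
  obtain ⟨prog, hp⟩ := h (M := Vale.Agent.P338.R2.H968.CallMem A) (slay_core (A := A) hW)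
  refine ⟨prog, fun p hpV x y hx hy => ?_⟩
  set z : D.CM.CF (FT A) Bool W → Zip (Ac A) :=
    coreIn bc (.dat (inF A).fx) (.dat (inF A).fy) .st x y (enc p) with hz
  have hzk : ∀ f, f ≠ .dat (inF A).fx → f ≠ .dat (inF A).fy → f ≠ .st → z f = ⟨[], []⟩ := by
    intro f h1 h2 h3
    simp only [hz, coreIn, if_neg h1, if_neg h2, if_neg h3]
  have hzx : z (.dat (inF A).fx) = ⟨[], x.map bc⟩ := by
    simp only [hz, coreIn, if_true]
  have hzy : z (.dat (inF A).fy) = ⟨[], y.map bc⟩ := by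
    have : (D.CM.CF.dat (inF A).fy : D.CM.CF (FT A) Bool W) ≠ .dat (inF A).fx := by simp [inF]
    simp only [hz, coreIn, if_neg this, if_true]
  have hzs : z .st = ⟨[], (enc p).map bc⟩ := by
    simp only [hz, coreIn, reduceCtorEq, if_false, if_true]
  have hS := slay_core (A := A) hW
  obtain ⟨z', r, c1, c2, c3, c4, c5⟩ := hp (mem0 A) z p x y (D0 p x y)
    (fun k => hzk _ (hS.nx k) (hS.ny k) (hS.ns k)) hzx hzy hzs
    ⟨hzk _ (by simp) (by simp) (by simp), fun i hi =>
      hzk _ (hS.ιx i hi) (hS.ιy i hi) (by rw [D.CM.CF.ι_of_lt (hi.trans_le hW)]; simp)⟩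
    (hok p hpV) (hD p hpV x y hx hy)
  have e' : z' = allZ W bc (repD (A := A)) (cpr bf sf wf p, D0 p x y) (fun _ => [])
      (enc (big p)) [] := by
    funext f
    by_cases hf1 : f = .dat (inF A).fx
    · subst hf1
      rw [c2]; rfl
    by_cases hf2 : f = .dat (inF A).fy
    · subst hf2
      rw [c3]; rfl
    by_cases hf3 : f = .st
    · subst hf3
      rw [hbig p hpV]
      exact c4
    by_cases hf4 : ∃ k, nmC A W k = f
    · obtain ⟨k, rfl⟩ := hf4
      rw [c1 k]; rfl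
    · rw [c5 f (fun k hk => hf4 ⟨k, hk⟩) hf1 hf2 hf3, hzk f hf1 hf2 hf3]
      cases f with
      | dat g =>
        cases g with
        | inl k => exact absurd ⟨k, rfl⟩ hf4
        | inr k => rfl
      | reg k => rfl
      | st => exact absurd rfl hf3
      | tmp => rfl
      | scr i => rfl
  rw [e'] at r
  refine r.mono ?_
  beta_reduce
  rw [hx, hy]
  omega

/-- **The setup of the core program** for the parameters `(d, s, y)`. -/
theorem exists_setupOK :
    ∃ e : ℕ, ∀ {A : MTM} {V : Set P0} {cap : P0 → ℕ} {D0 : P0 → List Bool → List Bool → DS}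
      (_ : ∀ p ∈ V, ∀ x y : List Bool, x.length = cap p → y.length = cap p →
        IsStart x y (D0 p x y)),
      SetupOK (inF A) V cap (fun p => (⟨pd p, ps p, py p⟩ : PV))
        (fun p => cpar (pd p) (ps p) (py p)) D0 fun p =>
        pb e (2 ^ aR (pd p) + ps p + py p) + 90 * (cpar (pd p) (ps p) (py p)).ell +
          14 * cap p := by
  have h1 : PT ∅ fun p : P0 => p.1 := PT.fst PT.id
  have h2 : PT ∅ fun p : P0 => p.2.1 := PT.fst (PT.snd PT.id)
  have h3 : PT ∅ fun p : P0 => p.2.2 := PT.snd (PT.snd PT.id)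
  have d1 : PT ∅ fun p : P0 => p.1.v := PT.unVal h1
  have d2 : PT ∅ fun p : P0 => p.2.1.v := PT.unVal h2
  have d3 : PT ∅ fun p : P0 => p.2.2.v := PT.unVal h3
  have b1 : PBd fun p : P0 => p.1.v := PBd.unVal h1
  have b2 : PBd fun p : P0 => p.2.1.v := PBd.unVal h2
  have b3 : PBd fun p : P0 => p.2.2.v := PBd.unVal h3
  obtain ⟨e, he⟩ := setupOK_of (H121.pt_bW d1 d2 d3) (H121.pbd_bW b1 b2 b3)
    (H121.pt_sc d1 d2 d3) (H121.pbd_sc b1 b2 b3) (H121.pt_wW d1 d2 d3)
    (H121.pbd_wW b1 b2 b3) pt_gOut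
  refine ⟨e, ?_⟩
  intro A V cap D0 hD
  refine he ?_ (fun p _ => cpar_ok _ _ _) hD
  intro p _
  rw [gOut_gEnd]
  rfl

end Vale.Agent.P338.R3.H235
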