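import Vale.Agent.P338.R3.H235.SetupOK
import Vale.Agent.P338.R3.H257.Chain

/-!
P338-D, module SETUP: the setup of the core program with the data at the start of the chain.
-/

namespace Vale.Agent.P338.R3.H235

open Vale.Agent.P338.R2.H898
open Vale.Agent.P338.R3.H898 (SetupOK InF inF)
open Vale.Agent.P338.R3.H121 (pd ps py cpar)
open Vale.Agent.P338.R3.H313 (PV)
open Vale.Agent.P338.R3.H501.Rad (aR)
open Vale.Agent.P338.R3.H257 (D0 blocks)
open Vale.Agent.Lib.PolyTime (pb)

theorem flatMap_blocks {k m : ℕ} {x : List Bool} (hx : x.length = k * m) :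
    (blocks k m x).flatMap List.reverse = x := by
  have h1 : ∀ n, (List.range n).flatMap (fun v => (x.drop (k * v)).take k) = x.take (k * n) := by
    intro n
    induction n with
    | zero => simp
    | succ n ih =>
      rw [List.range_succ, List.flatMap_append, ih, List.flatMap_singleton, Nat.mul_succ,
        List.take_add]
  rw [blocks, List.flatMap_map]
  simp only [List.reverse_reverse]
  rw [h1, ← hx, List.take_length]

/-- The data at the start of the chain. -/
theorem isStart_D0 {k m : ℕ} {x y : List Bool} (hx : x.length = k * m) (hy : y.length = k * m) :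
    IsStart x y (D0 (blocks k m x) (blocks k m y)) where
  X := rfl
  Y := rfl
  A := rfl
  B := rfl
  ix := flatMap_blocks hx
  iy := flatMap_blocks hy
  jx := rfl
  jy := rfl
  out := rfl
  acc := rfl
  cst := rfl
  sh := rfl

/-- **The setup of the core program** with the data at the start of the chain. -/
theorem exists_setupOK_D0 :
    ∃ e : ℕ, ∀ {A : MTM} {V : Set P0} {cap k m : P0 → ℕ} (_ : ∀ p ∈ V, cap p = k p * m p),
      SetupOK (inF A) V cap (fun p => (⟨pd p, ps p, py p⟩ : PV))
        (fun p => cpar (pd p) (ps p) (py p))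
        (fun p x y => D0 (blocks (k p) (m p) x) (blocks (k p) (m p) y)) fun p =>
        pb e (2 ^ aR (pd p) + ps p + py p) + 90 * (cpar (pd p) (ps p) (py p)).ell +
          14 * cap p := by
  obtain ⟨e, he⟩ := exists_setupOK
  refine ⟨e, ?_⟩
  intro A V cap k m hc
  exact he fun p hp x y hx hy => isStart_D0 (hx.trans (hc p hp)) (hy.trans (hc p hp))

end Vale.Agent.P338.R3.H235
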